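import Vale.Agent.P097F.Defs

/-!
# P097F: the deep charts of the true family
-/

set_option linter.all false

noncomputable section

namespace Vale.Agent.P097F.Bs

open Filter Topology Set Metric Complex Vale.Agent.P097T Vale.Agent.P097Top
open Vale.Agent.P097S Vale.Agent.P097S.Lp
open Vale.Agent.P097W (Envl Good Dec)

/-- the field `tr` of `Deep` for one window -/
def Tr (X : DD) (u s W₁ a R t₁ : ℝ) (Z : ℂ × ℂ → ℂ) : Prop :=
  AnalyticOnNhd ℂ Z (Ud W₁ ×ˢ Bx a R t₁ (X.r / (2 * X.η u))) ∧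
    (∀ q ∈ Ud W₁ ×ˢ Bx a R t₁ (X.r / (2 * X.η u)), ‖Z q - q.2‖ ≤ 1) ∧
    ∀ v : ℝ, (v : ℂ) ∈ Ud W₁ → ∀ x ∈ Bx a R t₁ (X.r / (2 * X.η u)),
      x.im < -X.pw u v → Z =ᶠ[𝓝 ((v : ℂ), x)] X.Yw u s v

def Spec_TR : Prop := ∀ X : DD, ∃ j₀ : ℕ, ∀ j ≥ j₀, ∀ N ≥ j, ∀ a M 𝒰 u s g,
  Envl X.η X.u₀ X.p N a → Win X a j M 𝒰 u s g → ∃ W₂ : ℝ, ∀ W₁ ≥ W₂, ∀ k : ℤ,
    X.Pl a j M 𝒰 u s k → ∀ R t₁ : ℝ, 0 < R → 0 < t₁ → (W₁ ^ 3) ^ 4 * (1 + R) ≤ t₁ ^ 4 →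
      ∃ Z : ℕ → ℂ × ℂ → ℂ, ∀ᶠ n in (𝒰 : Filter ℕ), Tr X (u n) (s n) W₁ k R t₁ (Z n)

/-- a good place gives calm cones -/
theorem kc {r d u t R M A s₀ s' : ℝ} {θ Q : ℂ → ℂ} {a : ℝ → ℝ} {j N : ℕ}
    (G : Good r (deriv θ) Q a d j M s₀) (one : ∀ t, 1 ≤ a t) (dec : Dec N a) (d0 : 0 < d)
    (u0 : 0 < u) (pk : a d * u ≤ 2 * d) (t16 : 16 ≤ t) (hs : |s' - s₀| ≤ d * R) (hR : R ≤ t ^ 4)
    (j40 : 40 ≤ j) (jN : j ≤ N)
    (hA : ((|M| + 1) * 65538 ^ 2) ^ 4 * (2 * d / u) ^ 8 * t ≤ 16 * A ^ 8) :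
    Kc r θ Q s' 1 (d * t / 16) A := by
  rintro y ⟨y0, y1, y2⟩
  obtain ⟨T, hT⟩ : ∃ T, r - y.im = d * T := ⟨(r - y.im) / d, by field_simp⟩
  have tT : t ≤ 16 * T := by
    rw [hT] at y1
    nlinarith
  have T1 : 1 ≤ T := by linarith
  have g := G y y0.le (by nlinarith)
  rw [one_mul] at y2
  rw [hT] at g y2 ⊢
  obtain ⟨σ, σ1, hσ⟩ : ∃ σ : ℝ, 1 ≤ σ ∧ σ ^ j = T :=
    ⟨T ^ ((j : ℝ)⁻¹), Real.one_le_rpow T1 (by positivity),
      Real.rpow_inv_natCast_pow (by linarith) (by omega)⟩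
  set m := (|M| + 1) * 65538 ^ 2 with hm
  have m1 : 1 ≤ m := by nlinarith [abs_nonneg M]
  set Γ := P097M.Gs (deriv θ) Q y * (d * T) ^ 2 with hΓ
  have Γ0 : 0 ≤ Γ := by
    rw [hΓ, P097M.Gs]
    positivity
  have α1 := one (d * T)
  have β1 := one d
  have e1 : max (d * T / d) (d / (d * T)) * (1 + |y.re - s₀| / (d * T)) ≤ 65538 * T ^ 4 := by
    rw [mul_div_cancel_left₀ _ d0.ne', max_eq_left ((div_le_one (by positivity)).2
      (by nlinarith) |>.trans T1), mul_add, mul_one, ← mul_div_assoc,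
      show T * |y.re - s₀| / (d * T) = |y.re - s₀| / d by field_simp]
    have h1 : |y.re - s₀| / d ≤ T + R := by
      rw [div_le_iff₀ d0]
      linarith [abs_sub_le y.re s' s₀]
    have h2 : t ^ 4 ≤ (16 * T) ^ 4 := by gcongr
    have h3 : T ≤ T ^ 4 := le_self_pow₀ T1 (by norm_num)
    linarith
  have h1 : Γ / a (d * T) ^ 2 ≤ m * σ ^ 8 := by
    refine le_of_pow_le_pow_left₀ (n := j) (by omega) (by positivity) (g.trans ?_)
    rw [mul_pow m, ← pow_mul σ, mul_comm 8 j, pow_mul σ, hσ]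
    calc _ ≤ (|M| + 1) * (65538 * T ^ 4) ^ 2 := by
          refine mul_le_mul (by linarith [le_abs_self M]) ?_ (by positivity) (by positivity)
          gcongr
      _ = m * T ^ 8 := by rw [hm]; ring
      _ ≤ _ := by gcongr; exact le_self_pow₀ m1 (by omega)
  have h2 : a (d * T) ≤ 2 * d / u * σ := by
    refine le_trans (b := a d * σ) ?_ (by gcongr; rwa [le_div_iff₀ u0])
    refine le_of_pow_le_pow_left₀ (n := N) (by omega) (by positivity) ?_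
    have := dec (d * T) d d0 (by nlinarith)
    rw [← mul_assoc, mul_right_comm] at this
    refine (le_of_mul_le_mul_right this d0).trans ?_
    rw [mul_pow, ← hσ]
    gcongr
  have h3 : Γ ≤ m * σ ^ 8 * (2 * d / u * σ) ^ 2 := by
    rw [div_le_iff₀ (by positivity)] at h1
    exact h1.trans (by gcongr)
  have h4 : Γ ^ 4 ≤ m ^ 4 * (2 * d / u) ^ 8 * T := by
    calc _ ≤ (m * σ ^ 8 * (2 * d / u * σ) ^ 2) ^ 4 := by gcongr
      _ = m ^ 4 * (2 * d / u) ^ 8 * σ ^ 40 := by ring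
      _ ≤ _ := by rw [← hσ]; gcongr
  have h5 : Γ ^ 2 * t ≤ 16 * A ^ 4 * T := by
    refine le_of_pow_le_pow_left₀ (n := 2) (by norm_num) (by positivity) ?_
    calc (Γ ^ 2 * t) ^ 2 = Γ ^ 4 * (t * t) := by ring
      _ ≤ m ^ 4 * (2 * d / u) ^ 8 * T * (t * (16 * T)) := by gcongr
      _ = m ^ 4 * (2 * d / u) ^ 8 * t * (16 * T ^ 2) := by ring
      _ ≤ 16 * A ^ 8 * (16 * T ^ 2) := by gcongr
      _ = _ := by ring
  have h6 : Γ ^ 2 * (d * t / 16) ≤ A ^ 4 * (d * T) := by nlinarith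
  have k1 : (‖deriv θ y‖ * (d * T)) ^ 2 ≤ Γ := by
    rw [hΓ, P097M.Gs, mul_pow]
    gcongr
    linarith [norm_nonneg (Q y)]
  have k2 : ‖Q y‖ * (d * T) ^ 2 ≤ Γ := by
    rw [hΓ, P097M.Gs]
    gcongr
    linarith [sq_nonneg ‖deriv θ y‖]
  refine ⟨le_trans ?_ h6, le_trans ?_ h6⟩
  · rw [show (4 : ℕ) = 2 * 2 from rfl, pow_mul]
    gcongr
  · gcongr

variable {r κ u₀ : ℝ} {θ H : ℂ → ℂ} {Y₀ : ℂ × ℂ → ℂ} {η : ℝ → ℝ} {Y : ℝ → ℂ × ℂ → ℂ}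

/-- a chart is the base solution near a low point of its cone -/
theorem low1 {Z : ℂ × ℂ → ℂ} {s a d R : ℝ} {x w : ℂ}
    (ch : Ch θ H Y₀ r κ s a d R Z) (hx : x ∈ Cn r s a d (κ / 4)) (h : x.im < κ / 2)
    (hw : w ∈ ball (0 : ℂ) R) : Z =ᶠ[𝓝 (x, w)] Y₀ := by
  filter_upwards [((cn_open _ _ _ _ _).prod isOpen_ball).mem_nhds
    (show (x, w) ∈ _ ×ˢ _ from ⟨hx, hw⟩),
    (continuous_im.comp continuous_fst).continuousAt.eventually (gt_mem_nhds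
      (show (x, w).1.im < κ / 2 from h))] with q q1 q2
  exact ch.eq _ q1.1 q2 _ q1.2

theorem low2 {s a d : ℝ} {x : ℂ} (a0 : 0 < a) (κ0 : 0 < κ) (hx : x ∈ Cn r s a d (κ / 4))
    (h : κ / 2 ≤ x.im) : (⟨x.re, 3 * κ / 8⟩ : ℂ) ∈ Cn r s a d (κ / 4) :=
  ⟨by simp only; linarith, by simp only; linarith [hx.2.1], hx.2.2.trans_le (by
    simp only
    nlinarith)⟩

/-- charts over cones, one for each point of an open set, glue -/
theorem glue (F : Fam r κ u₀ θ H Y₀ η Y) {B : Set ℂ} {a R b : ℝ} (oB : IsOpen B) (a0 : 0 < a)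
    (hi : ∀ x ∈ B, κ / 2 ≤ x.im)
    (h : ∀ x ∈ B, ∃ d ρ Z, Ch θ H Y₀ r κ x.re a d ρ Z ∧ R ≤ ρ ∧ x ∈ Cn r x.re a d (κ / 4) ∧
      ∀ w ∈ ball (0 : ℂ) R, ‖Z (x, w) - x‖ ≤ b) :
    ∃ Z : ℂ × ℂ → ℂ, AnalyticOnNhd ℂ Z (B ×ˢ ball 0 R) ∧
      (∀ x ∈ B, ∀ w ∈ ball (0 : ℂ) R, ‖Z (x, w) - x‖ ≤ b) ∧
      ∀ v ∈ Ioo 0 u₀, v < R → ∀ x ∈ B, x ∈ Strip (r - η v) → Z =ᶠ[𝓝 (x, (v : ℂ))] Y v := by
  choose! d ρ Zs c1 c2 c3 c4 using h
  have κ0 := F.sol.pos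
  have wb : ∀ x ∈ B, ∀ w ∈ ball (0 : ℂ) R, w ∈ ball (0 : ℂ) (ρ x) := fun x hx w hw =>
    ball_subset_ball (c2 x hx) hw
  have loc : ∀ x ∈ B, ∀ w ∈ ball (0 : ℂ) R,
      (fun q : ℂ × ℂ => Zs q.1 q) =ᶠ[𝓝 (x, w)] Zs x := fun x hx w hw => by
    filter_upwards [((oB.inter (cn_open _ _ _ _ _)).prod isOpen_ball).mem_nhds
      (show (x, w) ∈ _ ×ˢ _ from ⟨⟨hx, c3 x hx⟩, hw⟩)] with q hq
    obtain ⟨⟨q1, q2⟩, q3⟩ := hq
    have l1 := low2 a0 κ0 (c3 _ q1) (hi _ q1)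
    have l2 := low2 a0 κ0 q2 (hi _ q1)
    exact (spread (F := Zs q.1) (G := Zs x) (w := q.2)
      ((cn_convex _ _ _ _ _).inter (cn_convex _ _ _ _ _)).isPreconnected ⟨l1, l2⟩
      (fun y hy => ⟨ch_an (c1 _ q1) _ ⟨hy.1, wb _ q1 _ q3⟩, ch_an (c1 x hx) _ ⟨hy.2, wb x hx _ q3⟩⟩)
      ((low1 (c1 _ q1) l1 (by simp only; linarith) (wb _ q1 _ q3)).trans
        (low1 (c1 x hx) l2 (by simp only; linarith) (wb x hx _ q3)).symm) q.1
      ⟨c3 _ q1, q2⟩).eq_of_nhds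
  refine ⟨fun q => Zs q.1 q, fun q hq => (ch_an (c1 _ hq.1) _ ⟨c3 _ hq.1, wb _ hq.1 _ hq.2⟩).congr
    (loc _ hq.1 _ hq.2).symm, c4, fun v m vR x hx hs => ?_⟩
  have hw : (v : ℂ) ∈ ball (0 : ℂ) R := by
    rwa [mem_ball_zero_iff, norm_real, Real.norm_of_nonneg m.1.le]
  have l1 := low2 a0 κ0 (c3 x hx) (hi x hx)
  have x1 : |(⟨x.re, 3 * κ / 8⟩ : ℂ).im| < κ := by
    simp only
    rw [abs_of_pos (by positivity)]
    linarith
  exact (loc _ hx _ hw).trans (spread (F := Zs x) (G := Y v) (w := v)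
    ((cn_convex r x.re a (d x) (κ / 4)).inter (Leaf.convex_strip (r - η v))).isPreconnected
    ⟨l1, lt_of_lt_of_le x1 (by linarith [F.low v m])⟩
    (fun y hy => ⟨ch_an (c1 x hx) _ ⟨hy.1, wb x hx _ hw⟩, F.an v m y hy.2⟩)
    ((low1 (c1 x hx) l1 (by simp only; linarith) (wb x hx _ hw)).trans (F.base v m _ x1)) _
    ⟨c3 x hx, hs⟩)

/-- the box in absolute units -/
def Ba (X : DD) (u s k R t₁ : ℝ) : Set ℂ := {y : ℂ | |y.re - (s + X.η u * k)| < X.η u * R ∧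
      X.η u * t₁ < X.r - y.im ∧ X.r - y.im < X.r / 2}

theorem one0 (X : DD) {a₁ c : ℝ} (a0 : 0 < a₁) (a1 : a₁ ≤ 1 / 8) (c0 : 0 < c)
    (cb : ∀ s d A : ℝ, 0 < d → d ≤ X.r → 1 ≤ A → Kc X.r X.θ X.Q s 1 d A →
      ∃ Z, Ch X.θ X.H X.Y₀ X.r X.κ s a₁ (8 * d) (c * d / A) Z)
    {a : ℝ → ℝ} {N j : ℕ} {M u s k W₁ R t₁ : ℝ} (E : Envl X.η X.u₀ X.p N a) (pk : X.Pk a u)
    (G : Good X.r (deriv X.θ) X.Q a (X.η u) j M (s + X.η u * k)) (j40 : 40 ≤ j) (jN : j ≤ N)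
    (W16 : 16 ≤ W₁) (hW : ((|M| + 1) * 65538 ^ 2) ^ 4 * (16 * 8 ^ 8) ≤ c ^ 8 * W₁) (R0 : 0 < R)
    (t0 : 0 < t₁) (ht : (W₁ ^ 3) ^ 4 * (1 + R) ≤ t₁ ^ 4) (e1 : 8 * u * W₁ ≤ c * X.η u) :
    ∃ Z : ℂ × ℂ → ℂ, AnalyticOnNhd ℂ Z (Ba X u s k R t₁ ×ˢ ball 0 (4 * u * W₁)) ∧
      (∀ x ∈ Ba X u s k R t₁, ∀ w ∈ ball (0 : ℂ) (4 * u * W₁), ‖Z (x, w) - x‖ ≤ X.η u) ∧
      ∀ v ∈ Ioo 0 X.u₀, v < 4 * u * W₁ → ∀ x ∈ Ba X u s k R t₁, x ∈ Strip (X.r - X.η v) →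
        Z =ᶠ[𝓝 (x, (v : ℂ))] X.Y v := by
  obtain ⟨⟨u0, -⟩, d0, pk⟩ := pk
  have F := X.dat.fam
  have κ0 := F.sol.pos
  have two := F.two
  have W0 : 0 < W₁ := by linarith
  have W3 : 16 ^ 3 ≤ W₁ ^ 3 := by gcongr
  have p1 : 1 ≤ (W₁ ^ 3) ^ 4 := one_le_pow₀ (by linarith)
  have t1 : W₁ ^ 3 ≤ t₁ := le_of_pow_le_pow_left₀ (n := 4) (by norm_num) t0.le (by nlinarith)
  have R1 : R ≤ t₁ ^ 4 := by nlinarith
  unfold Ba
  set d := X.η u with hd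
  exact glue F (B := {y : ℂ | |y.re - (s + d * k)| < d * R ∧
      d * t₁ < X.r - y.im ∧ X.r - y.im < X.r / 2}) (a := a₁) (R := 4 * u * W₁) (b := d)
    (IsOpen.and (isOpen_lt (by fun_prop) (by fun_prop)) (IsOpen.and
      (isOpen_lt (by fun_prop) (by fun_prop)) (isOpen_lt (by fun_prop) (by fun_prop)))) a0
    (fun x hx => by linarith [hx.2.2]) (by
      rintro x ⟨x1, x2, x3⟩
      obtain ⟨q, q0, hq⟩ : ∃ q : ℝ, 0 ≤ q ∧ X.r - x.im = d * q ^ 2 :=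
        ⟨√((X.r - x.im) / d), Real.sqrt_nonneg _, by
          rw [Real.sq_sqrt (div_nonneg (by nlinarith) d0.le)]
          field_simp⟩
      have q1 : t₁ ≤ q ^ 2 := by
        rw [hq] at x2
        exact (lt_of_mul_lt_mul_left x2 d0.le).le
      have q8 : 8 ≤ q := by nlinarith
      have τ0 : 0 < d * q ^ 2 := by positivity
      obtain ⟨Z, ch⟩ := cb x.re (d * q ^ 2 / 16) (c * q * d / (8 * u * W₁)) (by positivity)
        (by linarith) (by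
          rw [le_div_iff₀ (by positivity)]
          nlinarith [mul_pos c0 d0])
        (kc G E.one E.dec d0 u0 pk (by linarith) x1.le (R1.trans (by gcongr)) j40 jN (by
          have h1 : W₁ ^ 9 ≤ q ^ 6 := by
            calc W₁ ^ 9 = (W₁ ^ 3) ^ 3 := by ring
              _ ≤ (q ^ 2) ^ 3 := by gcongr; linarith
              _ = _ := by ring
          rw [show 16 * (c * q * d / (8 * u * W₁)) ^ 8 =
            c ^ 8 * q ^ 6 / (16 * 8 ^ 8 * W₁ ^ 8) * (2 * d / u) ^ 8 * q ^ 2 by field_simp; ring]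
          gcongr
          rw [le_div_iff₀ (by positivity)]
          calc _ = ((|M| + 1) * 65538 ^ 2) ^ 4 * (16 * 8 ^ 8) * W₁ ^ 8 := by ring
            _ ≤ c ^ 8 * W₁ * W₁ ^ 8 := by gcongr
            _ = c ^ 8 * W₁ ^ 9 := by ring
            _ ≤ _ := by gcongr))
      rw [show c * (d * q ^ 2 / 16) / (c * q * d / (8 * u * W₁)) = q * u * W₁ / 2 by
        field_simp; ring] at ch
      have uW : 0 < u * W₁ := by positivity
      have ρ1 : 4 * u * W₁ ≤ q * u * W₁ / 2 := by nlinarith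
      have xm : x ∈ Cn X.r x.re a₁ (8 * (d * q ^ 2 / 16)) (X.κ / 4) :=
        ⟨by linarith, by linarith, by
          rw [sub_self, abs_zero, hq]
          positivity⟩
      refine ⟨_, _, Z, ch, ρ1, xm, fun w hw => ?_⟩
      have k1 := ch.bd x xm w (ball_subset_ball ρ1 hw)
      rw [mem_ball_zero_iff] at hw
      refine le_of_mul_le_mul_right (k1.trans ?_) (by positivity : 0 < (q * u * W₁ / 2) ^ 2)
      calc _ ≤ 1 / 8 * (d * q ^ 2) / 16 * (4 * u * W₁) ^ 2 := by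
            gcongr
            rw [hq]
            exact (min_le_left _ _).trans (by gcongr)
        _ = d * (q * u * W₁ / 2) ^ 2 / 2 := by ring
        _ ≤ _ := half_le_self (by positivity))

theorem one (X : DD) {u s k W₁ R t₁ : ℝ} {Z : ℂ × ℂ → ℂ} (u0 : 0 < u) (d0 : 0 < X.η u)
    (W0 : 0 < W₁) (e2 : 4 * u * W₁ ≤ X.u₀)
    (z1 : AnalyticOnNhd ℂ Z (Ba X u s k R t₁ ×ˢ ball 0 (4 * u * W₁)))
    (z2 : ∀ x ∈ Ba X u s k R t₁, ∀ w ∈ ball (0 : ℂ) (4 * u * W₁), ‖Z (x, w) - x‖ ≤ X.η u)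
    (z3 : ∀ v ∈ Ioo 0 X.u₀, v < 4 * u * W₁ → ∀ x ∈ Ba X u s k R t₁, x ∈ Strip (X.r - X.η v) →
      Z =ᶠ[𝓝 (x, (v : ℂ))] X.Y v) : ∃ Z, Tr X u s W₁ k R t₁ Z := by
  have κ0 := X.dat.fam.sol.pos
  have two := X.dat.fam.two
  unfold Ba at z1 z2 z3
  set d := X.η u with hd
  have re : ∀ x : ℂ, (X.wy u s x).re = s + d * x.re := fun x => by simp [DD.wy, hd]
  have im : ∀ x : ℂ, (X.wy u s x).im = X.r + d * x.im := fun x => by simp [DD.wy, hd]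
  have mB : ∀ x ∈ Bx k R t₁ (X.r / (2 * d)), X.wy u s x ∈ {y : ℂ | |y.re - (s + d * k)| < d * R ∧
      d * t₁ < X.r - y.im ∧ X.r - y.im < X.r / 2} := by
    rintro x ⟨x1, x2, x3, x4⟩
    rw [neg_lt, lt_div_iff₀ (by positivity)] at x3
    rw [mem_setOf_eq, re, im, abs_lt]
    exact ⟨⟨by nlinarith, by nlinarith⟩, by nlinarith, by nlinarith⟩
  have mW : ∀ w ∈ Ud W₁, ‖w‖ < 4 * W₁ := fun w hw => by
    rw [Ud, mem_ball, dist_eq_norm] at hw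
    have := norm_le_norm_add_norm_sub' w (2 * W₁ : ℂ)
    rw [norm_mul, norm_real, Real.norm_of_nonneg W0.le, Complex.norm_two] at this
    linarith
  have mU : ∀ w ∈ Ud W₁, (u : ℂ) * w ∈ ball (0 : ℂ) (4 * u * W₁) := fun w hw => by
    rw [mem_ball_zero_iff, norm_mul, norm_real, Real.norm_of_nonneg u0.le]
    nlinarith [mW w hw]
  have aw : ∀ q : ℂ × ℂ, AnalyticAt ℂ (fun q : ℂ × ℂ => (X.wy u s q.2, (u : ℂ) * q.1)) q :=
    fun q => (analyticAt_const.add (analyticAt_const.mul analyticAt_snd)).prod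
      (analyticAt_const.mul analyticAt_fst)
  refine ⟨fun q => (Z (X.wy u s q.2, u * q.1) - s - X.r * I) / d, fun q hq => ?_, fun q hq => ?_,
    fun v hv x hx hp => ?_⟩
  · exact (((AnalyticAt.comp (g := Z) (z1 _ ⟨mB _ hq.2, mU _ hq.1⟩) (aw q)).sub
      analyticAt_const).sub analyticAt_const).div_const
  · have := z2 _ (mB _ hq.2) _ (mU _ hq.1)
    have dn : (d : ℂ) ≠ 0 := ofReal_ne_zero.2 d0.ne'
    rw [show (Z (X.wy u s q.2, u * q.1) - s - X.r * I) / d - q.2 =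
      (Z (X.wy u s q.2, u * q.1) - X.wy u s q.2) / d by
        rw [eq_div_iff dn, sub_mul, div_mul_cancel₀ _ dn, DD.wy, ← hd]; ring,
      norm_div, norm_real, Real.norm_of_nonneg d0.le, div_le_one d0]
    exact this
  · have v1 := mW _ hv
    rw [Ud, mem_ball, dist_eq_norm] at hv
    have v2 := abs_lt.1 ((abs_re_le_norm _).trans_lt hv)
    simp only [sub_re, ofReal_re, mul_re, re_ofNat, im_ofNat, ofReal_im, mul_zero, sub_zero] at v2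
    have v0 : 0 < v := by linarith [v2.1]
    have v3 : u * v < 4 * u * W₁ := by nlinarith [v2.2]
    have k1 := z3 (u * v) ⟨by positivity, by linarith⟩ v3 _ (mB x hx) (by
      have h1 := (mB x hx).2.2
      show |(X.wy u s x).im| < _
      rw [abs_of_pos (by linarith), im]
      rw [DD.pw, ← hd, lt_neg, div_lt_iff₀ d0] at hp
      linarith)
    rw [ofReal_mul] at k1
    filter_upwards [(aw (v, x)).continuousAt.tendsto.eventually k1] with q hq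
    show _ = (X.Y (u * v) (X.wy u s q.2, u * q.1) - s - X.r * I) / X.η u
    rw [← hq]

theorem tr : Spec_TR := by
  intro X
  have F := X.dat.fam
  obtain ⟨a₁, c, a0, a1, c0, cb⟩ :=
    P097S.cb _ _ _ _ _ _ _ (dt_of X.dat.cur F.sol F.two) 1 one_pos le_rfl
  refine ⟨40, fun j j40 N jN a M 𝒰 u s g E W => ⟨max 16
    (((|M| + 1) * 65538 ^ 2) ^ 4 * (16 * 8 ^ 8) / c ^ 8), fun W₁ hW k pl R t₁ R0 t0 ht => ?_⟩⟩
  have W16 : 16 ≤ W₁ := le_of_max_le_left hW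
  have W2 := (div_le_iff₀' (by positivity)).1 (le_of_max_le_right hW)
  have r0 := X.dat.cur.rpos
  have u0 := F.pos
  have ev : ∀ᶠ n in (𝒰 : Filter ℕ), ∃ Z, Tr X (u n) (s n) W₁ k R t₁ Z := by
    filter_upwards [pl, W.le (W.ep0.eventually (gt_mem_nhds
      (show 0 < min (c / (8 * W₁)) (X.u₀ / (4 * W₁ * X.r)) by positivity)))] with n G hn
    obtain ⟨m, d0, pk⟩ := W.pk n
    have h1 := (hn.trans_le (min_le_left _ _)).le
    have h2 := (hn.trans_le (min_le_right _ _)).le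
    rw [DD.ep, div_le_div_iff₀ d0 (by positivity)] at h1 h2
    have h3 : X.η (u n) ≤ X.r := by linarith [F.low _ m, F.sol.pos]
    obtain ⟨Z, z1, z2, z3⟩ :=
      one0 X a0 (by linarith) c0 cb E (W.pk n) G j40 jN W16 W2 R0 t0 ht (by linarith)
    refine one X m.1 d0 (by linarith) ?_ z1 z2 z3
    refine le_of_mul_le_mul_right ?_ r0
    nlinarith
  exact ev.choice

end Vale.Agent.P097F.Bs
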